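import Vale.Agent.P065.UB.H334.ToMach
import Vale.Agent.P065.UB.H433.FrmSys
import Vale.Agent.P065.H989.PolesT

/-!
# P065, upper bound, line U (helper334): 433's `frame_sys` gives `StSysM`
-/

set_option autoImplicit false

namespace Vale.Agent.P065.UB.H334

open Finset Vale.Agent.P065.UB Vale.Agent.P065.UB.RankAux Vale.Agent.P065.H183
open Vale.Agent.P065.UB.H415 Vale.Agent.P065.H989

/-- **MACH2a** -/
theorem stSysM : StSysM := by
  classical
  refine ⟨2, ?_⟩
  intro K0 K lam Q W I R c w0 m0 Pr Wd o1 o2 o3 F hV hKK hP _ _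
  obtain ⟨p, u, q, v, r, w, -, hS⟩ := H433.frame_sys hP hV hKK
  refine ⟨(F.image Prod.snd).image fun B => Wd (o1, B), p, u,
    (F.image Prod.snd).image fun B => Wd (o2, B), q, v,
    fun a => ({B ∈ F.image Prod.snd | (a, B) ∈ F}).image fun B => Wd (a, B), r, w, ?_⟩
  have hZ : ∀ a ∈ F.image Prod.fst, H433.fZ m0 c o1 o2 o3 a = MC.fZ m0 c o1 o2 a := by
    intro a ha
    obtain ⟨e, he, rfl⟩ := mem_image.1 ha
    funext z
    have hc := H433.poles_ne1 hP he
    have h1 := H433.fZ_eq (m0 := m0) (c := c) (q := z) hc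
    rw [h1]
    rfl
  exact
    { ne := hS.ne
      tri := fun a ha => by
        have t := hS.tri a ha
        rw [hZ a ha] at t
        exact t
      sub := hS.sub
      memI := hS.memI
      memJ := hS.memJ
      pij := hS.pij
      v1 := hS.v1
      mass := hS.mass }

/-- **MACHINE** from `StPoles` -/
theorem machine_of_poles (h : StPoles) : MC.StMachine := machine_of h stSysM

/-- **MACHINE**, unconditional -/
theorem stMachine : MC.StMachine := machine_of_poles stPoles

end Vale.Agent.P065.UB.H334
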