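import Vale.Agent.P065.H240.Cor
import Vale.Agent.P065.H989.PolesDefs
import Vale.Agent.P065.UB.Mach.Defs

/-!
# P065, upper bound, line U, MACH2b (helper334): ONE RESOLUTION (240) + `Poles` (989) ⇒ `MC.Mach`

`StSysM`: the literal Prop of MACH2a (helper352, helper433). `machine_of`: from `StPoles` and
`StSysM` the machine `MC.StMachine`.
-/

set_option autoImplicit false

namespace Vale.Agent.P065.UB.H334

open Finset Vale.Agent.P065.UB Vale.Agent.P065.UB.RankAux Vale.Agent.P065.H183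
open Vale.Agent.P065.UB.H415 Vale.Agent.P065.H989 Vale.Agent.P065.UB.MC

section

variable {K K' K'' K0 lam : ℝ} {Q : Finset Pt} {W : Finset ℕ} {I : ℕ → Set ℝ} {R : ℕ → Finset Pt}
  {c : Pt} {w0 : ℕ} {m0 : ℝ} {Pr : Finset (Pt × Pt)} {Wd : Pt × Pt → ℕ} {o1 o2 o3 : Pt}
  {F : Finset (Pt × Pt)}

/-- the pairs of a `Cher` are flags -/
theorem flag_of (h : Cher K lam Q W I R c w0 m0 Pr Wd) {a q : Pt} (he : (a, q) ∈ Pr) :
    Flag Q W I R c w0 m0 Wd a q where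
  aQ := h.mem1 _ he
  qQ := h.mem2 _ he
  jc := h.jc _ he
  wW := h.wdW _ he
  w0 := h.wd0 _ he
  jq := h.jq _ he
  ex := h.ex _ he

open Classical in
/-- a square of half side `2 δ` is covered by four squares of half side `δ` -/
theorem four_squares {α : Type} (S : Finset α) (X Y : α → ℝ) {δ M : ℝ} (_hδ : 0 ≤ δ)
    (h : ∀ x y : ℝ, (#{q ∈ S | |X q - x| ≤ δ ∧ |Y q - y| ≤ δ} : ℝ) ≤ M) (x y : ℝ) :
    (#{q ∈ S | |X q - x| ≤ 2 * δ ∧ |Y q - y| ≤ 2 * δ} : ℝ) ≤ 4 * M := by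
  have hsub : ({q ∈ S | |X q - x| ≤ 2 * δ ∧ |Y q - y| ≤ 2 * δ} : Finset α) ⊆
      ({q ∈ S | |X q - (x - δ)| ≤ δ ∧ |Y q - (y - δ)| ≤ δ} ∪
        {q ∈ S | |X q - (x - δ)| ≤ δ ∧ |Y q - (y + δ)| ≤ δ}) ∪
      ({q ∈ S | |X q - (x + δ)| ≤ δ ∧ |Y q - (y - δ)| ≤ δ} ∪
        {q ∈ S | |X q - (x + δ)| ≤ δ ∧ |Y q - (y + δ)| ≤ δ}) := by
    intro q hq
    rw [mem_filter, abs_le, abs_le] at hq
    obtain ⟨hqS, ⟨h1, h2⟩, h3, h4⟩ := hq
    have key : ∀ z z0 : ℝ, -(2 * δ) ≤ z - z0 → z - z0 ≤ 2 * δ →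
        |z - (z0 - δ)| ≤ δ ∨ |z - (z0 + δ)| ≤ δ := by
      intro z z0 h1 h2
      rcases le_total z z0 with h | h
      · left; rw [abs_le]; constructor <;> linarith
      · right; rw [abs_le]; constructor <;> linarith
    simp only [mem_union, mem_filter]
    rcases key _ _ h1 h2 with hx | hx <;> rcases key _ _ h3 h4 with hy | hy
    · exact Or.inl (Or.inl ⟨hqS, hx, hy⟩)
    · exact Or.inl (Or.inr ⟨hqS, hx, hy⟩)
    · exact Or.inr (Or.inl ⟨hqS, hx, hy⟩)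
    · exact Or.inr (Or.inr ⟨hqS, hx, hy⟩)
  have h1 := (card_le_card hsub).trans (card_union_le _ _)
  have h2 := card_union_le ({q ∈ S | |X q - (x - δ)| ≤ δ ∧ |Y q - (y - δ)| ≤ δ} : Finset α)
    {q ∈ S | |X q - (x - δ)| ≤ δ ∧ |Y q - (y + δ)| ≤ δ}
  have h3 := card_union_le ({q ∈ S | |X q - (x + δ)| ≤ δ ∧ |Y q - (y - δ)| ≤ δ} : Finset α)
    {q ∈ S | |X q - (x + δ)| ≤ δ ∧ |Y q - (y + δ)| ≤ δ}
  have h4 : (#{q ∈ S | |X q - x| ≤ 2 * δ ∧ |Y q - y| ≤ 2 * δ} : ℝ) ≤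
      ((#{q ∈ S | |X q - (x - δ)| ≤ δ ∧ |Y q - (y - δ)| ≤ δ} : ℝ) +
        #{q ∈ S | |X q - (x - δ)| ≤ δ ∧ |Y q - (y + δ)| ≤ δ}) +
      ((#{q ∈ S | |X q - (x + δ)| ≤ δ ∧ |Y q - (y - δ)| ≤ δ} : ℝ) +
        #{q ∈ S | |X q - (x + δ)| ≤ δ ∧ |Y q - (y + δ)| ≤ δ}) := by
    exact_mod_cast h1.trans (add_le_add h2 h3)
  linarith [h (x - δ) (y - δ), h (x - δ) (y + δ), h (x + δ) (y - δ), h (x + δ) (y + δ)]

/-- two points of one interval -/
theorem two_pts {x y c s δ : ℝ} (h1 : |x - c| ≤ s) (h2 : |y - c| ≤ s) (hs : s ≤ δ) :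
    |x - y| ≤ 2 * δ := by
  rw [abs_le] at h1 h2 ⊢
  constructor <;> linarith [h1.1, h1.2, h2.1, h2.2]

open Classical in
/-- **MACH2b** -/
theorem mach0_of (hV : JView K0 lam Q W I R)
    (hP : Poles K lam Q W I R c w0 m0 Pr Wd o1 o2 o3 F)
    {LI : Finset ℕ} {p u : ℕ → ℝ} {LJ : Finset ℕ} {q v : ℕ → ℝ} {LK : Pt → Finset ℕ}
    {r w : Pt → ℕ → ℝ}
    (hS : H240.Sys K' lam (#Q / lam ^ 2) (F.image Prod.fst) (F.image Prod.snd)
      (fun a => {z ∈ F.image Prod.snd | (a, z) ∈ F}) (fX m0 c o1) (fY m0 c o1 o2 o3)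
      (fZ m0 c o1 o2) LI p u (fun z => Wd (o1, z)) LJ q v (fun z => Wd (o2, z)) LK r w
      (fun a z => Wd (a, z)))
    (hLK : 12 * 10 ^ 7 * K' ^ 20 ≤ lam) (h1 : K ≤ K'') (h2 : 64 * 10 ^ 21 * K' ^ 50 ≤ K'')
    (h3 : 15360 ^ 2 * K * K' ^ 21 ≤ K'') :
    ∃ F₁ ⊆ F, ∃ δ : ℝ, Mach0 K'' lam Q W I R c w0 m0 o1 o2 o3 F₁ Wd δ := by
  have hlam : 1 ≤ lam := hV.one
  have hlam0 : 0 < lam := by linarith
  have hQ0 : (0 : ℝ) ≤ #Q := Nat.cast_nonneg _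
  obtain ⟨δ, hδ, H, E, hHC, hE, hEc, hcell, -, -⟩ := H240.oneres_pairs hS hLK
  have hEF : E ⊆ F := by
    rintro ⟨a, z⟩ he
    have := (hE _ he).2.2.1
    exact (mem_filter.1 this).2
  have hPr : ∀ e ∈ E, e ∈ Pr := fun e he => hP.sub (hEF he)
  refine ⟨E, hEF, 2 * δ, ?_⟩
  have hCa : ∀ e ∈ E, e.2 ∈ ({z ∈ F.image Prod.snd | (e.1, z) ∈ F} : Finset Pt) :=
    fun e he => (hE e he).2.2.1
  have hA : ∀ e ∈ E, e.1 ∈ F.image Prod.fst := fun e he => (hE e he).1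
  refine
    { w0W := hP.cher.w0W
      cQ := hP.cher.cQ
      m0I := hP.cher.m0I
      pos := by linarith
      card := ?_
      fl := fun e he => flag_of hP.cher (hPr e he)
      fl1 := fun e he => flag_of hP.cher (hP.e1 e (hEF he))
      fl2 := fun e he => flag_of hP.cher (hP.e2 e (hEF he))
      fl3 := fun e he => flag_of hP.cher (hP.e3 e (hEF he))
      above := ?_
      ne12 := hP.n12
      ne13 := hP.n13
      ne23 := hP.n23
      ne1 := fun e he => hP.a1 e (hEF he)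
      ne2 := fun e he => hP.a2 e (hEF he)
      nice := fun e he => ⟨hP.cr1 e (hEF he), hP.cr2 e (hEF he)⟩
      flag := ?_
      cell := ?_
      wX := ?_
      wY := ?_
      wZ := ?_ }
  · -- many flags
    have e1 : (#F : ℝ) ≤ #(F.image Prod.fst) * #Q := by
      have : F ⊆ F.image Prod.fst ×ˢ Q := fun e he =>
        mem_product.2 ⟨mem_image_of_mem _ he, hP.cher.mem2 e (hP.sub he)⟩
      have h := card_le_card this
      rw [card_product] at h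
      exact_mod_cast h
    have e2 : lam ^ 2 * (#Q / lam ^ 2) * #(F.image Prod.fst) = (#Q : ℝ) * #(F.image Prod.fst) := by
      field_simp
    rw [e2] at hEc
    have hK0 : 0 ≤ K := by linarith [hP.two]
    calc (#Q : ℝ) ^ 2 ≤ K * lam * #F := hP.card
      _ ≤ K * lam * (#(F.image Prod.fst) * #Q) := mul_le_mul_of_nonneg_left e1 (by positivity)
      _ = K * lam * (#Q * #(F.image Prod.fst)) := by ring
      _ ≤ K * lam * (15360 ^ 2 * K' ^ 21 * #E) := mul_le_mul_of_nonneg_left hEc (by positivity)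
      _ = (15360 ^ 2 * K * K' ^ 21) * (lam * #E) := by ring
      _ ≤ K'' * (lam * #E) := mul_le_mul_of_nonneg_right h3 (by positivity)
      _ = K'' * lam * #E := by ring
  · rcases hP.cher.above with h | h
    · exact Or.inl fun e he => h e (hPr e he)
    · exact Or.inr fun e he => h e (hPr e he)
  · intro z n
    refine le_trans ?_ ((hP.flag z n).trans (mul_le_mul_of_nonneg_right h1 hQ0))
    refine mul_le_mul_of_nonneg_left ?_ (by positivity)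
    have : #{a ∈ E.image Prod.fst | (a, z) ∈ E ∧ Wd (a, z) = n} ≤
        #{a ∈ Pr.image Prod.fst | (a, z) ∈ Pr ∧ Wd (a, z) = n} := by
      apply card_le_card
      intro a ha
      rw [mem_filter] at ha ⊢
      exact ⟨image_subset_image (fun e he => hPr e he) ha.1, hPr _ ha.2.1, ha.2.2⟩
    exact_mod_cast this
  · intro x y
    have e1 : ∀ x y : ℝ, (#{z ∈ E.image Prod.snd | |fX m0 c o1 z - x| ≤ δ ∧
        |fY m0 c o1 o2 o3 z - y| ≤ δ} : ℝ) ≤ 16 * 10 ^ 21 * K' ^ 50 * (#Q / lam ^ 2) := by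
      intro x y
      refine le_trans ?_ (hcell δ x y le_rfl)
      have : ({z ∈ E.image Prod.snd | |fX m0 c o1 z - x| ≤ δ ∧
          |fY m0 c o1 o2 o3 z - y| ≤ δ} : Finset Pt) ⊆
          {z ∈ H | |fX m0 c o1 z - x| ≤ δ ∧ |fY m0 c o1 o2 o3 z - y| ≤ δ} := by
        intro z hz
        rw [mem_filter] at hz ⊢
        refine ⟨?_, hz.2⟩
        obtain ⟨e, he, rfl⟩ := mem_image.1 hz.1
        exact (hE e he).2.1
      exact_mod_cast card_le_card this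
    have e2 := four_squares (E.image Prod.snd) (fX m0 c o1) (fY m0 c o1 o2 o3) hδ.le e1 x y
    calc lam ^ 2 * (#{z ∈ E.image Prod.snd | |fX m0 c o1 z - x| ≤ 2 * δ ∧
          |fY m0 c o1 o2 o3 z - y| ≤ 2 * δ} : ℝ)
        ≤ lam ^ 2 * (4 * (16 * 10 ^ 21 * K' ^ 50 * (#Q / lam ^ 2))) :=
          mul_le_mul_of_nonneg_left e2 (by positivity)
      _ = 64 * 10 ^ 21 * K' ^ 50 * #Q := by field_simp; ring
      _ ≤ K'' * #Q := mul_le_mul_of_nonneg_right h2 hQ0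
  · intro e he e' he' hw
    have t := hS.tri e.1 (hA e he)
    have t' := hS.tri e'.1 (hA e' he')
    have n1 := t.nx e.2 (hCa e he)
    have n2 := t'.nx e'.2 (hCa e' he')
    rw [← hw] at n2
    exact two_pts n1 n2 (hE e he).2.2.2.1
  · intro e he e' he' hw
    have t := hS.tri e.1 (hA e he)
    have t' := hS.tri e'.1 (hA e' he')
    have n1 := t.ny e.2 (hCa e he)
    have n2 := t'.ny e'.2 (hCa e' he')
    rw [← hw] at n2
    exact two_pts n1 n2 (hE e he).2.2.2.2.1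
  · rintro ⟨a, z⟩ he ⟨a', z'⟩ he' haa hw
    simp only at haa
    subst haa
    have t := hS.tri a (hA _ he)
    have n1 := t.nz z (hCa _ he)
    have n2 := t.nz z' (hCa _ he')
    rw [← hw] at n2
    exact two_pts n1 n2 (hE _ he).2.2.2.2.2

end

open Classical in
/-- **MACH2a** (literal Prop; helper352, helper433) -/
def StSysM : Prop :=
  ∃ C : ℕ, ∀ (K0 K lam : ℝ) (Q : Finset Pt) (W : Finset ℕ) (I : ℕ → Set ℝ) (R : ℕ → Finset Pt)
    (c : Pt) (w0 : ℕ) (m0 : ℝ) (Pr : Finset (Pt × Pt)) (Wd : Pt × Pt → ℕ) (o1 o2 o3 : Pt)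
    (F : Finset (Pt × Pt)), JView K0 lam Q W I R → K0 ≤ K →
    Poles K lam Q W I R c w0 m0 Pr Wd o1 o2 o3 F → K ^ C ≤ lam → lam ^ C ≤ #Q →
    ∃ (LI : Finset ℕ) (p u : ℕ → ℝ) (LJ : Finset ℕ) (q v : ℕ → ℝ) (LK : Pt → Finset ℕ)
      (r w : Pt → ℕ → ℝ),
      H240.Sys (K ^ C) lam (#Q / lam ^ 2) (F.image Prod.fst) (F.image Prod.snd)
        (fun a => {z ∈ F.image Prod.snd | (a, z) ∈ F}) (fX m0 c o1) (fY m0 c o1 o2 o3)
        (fZ m0 c o1 o2) LI p u (fun z => Wd (o1, z)) LJ q v (fun z => Wd (o2, z)) LK r w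
        (fun a z => Wd (a, z))

/-- **MACHINE** from `StPoles` (989) and `StSysM` (433) -/
theorem machine_of (h1 : StPoles) (h2 : StSysM) : MC.StMachine := by
  obtain ⟨C₁, h1⟩ := h1
  obtain ⟨C₂, h2⟩ := h2
  set C : ℕ := 1000 + C₁ + C₂ + 100 * (C₁ * C₂) with hC
  refine ⟨C, ?_⟩
  intro K lam Q W I R hV _ _ hKlam hlamQ
  have hK2 : 2 ≤ K := hV.two
  have hK1 : 1 ≤ K := by linarith
  have hlam1 : 1 ≤ lam := hV.one
  have hpow : ∀ n : ℕ, n ≤ C → K ^ n ≤ lam := fun n hn =>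
    (pow_le_pow_right₀ hK1 hn).trans hKlam
  have hpowQ : ∀ n : ℕ, n ≤ C → lam ^ n ≤ #Q := fun n hn =>
    (pow_le_pow_right₀ hlam1 hn).trans hlamQ
  have two_pow : ∀ n : ℕ, (2 : ℝ) ^ n ≤ K ^ n := fun n => pow_le_pow_left₀ (by norm_num) hK2 n
  obtain ⟨c, w0, m0, Pr, Wd, o1, o2, o3, F, hP⟩ := h1 K lam Q W I R hV
    (hpow C₁ (by omega)) (hpowQ C₁ (by omega))
  have hpow2 : (K ^ C₁) ^ C₂ ≤ lam := by
    rw [← pow_mul]
    exact hpow _ (by omega)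
  have hC1K : K ≤ K ^ (C₁ + 1) := by
    calc K = K ^ 1 := (pow_one K).symm
      _ ≤ _ := pow_le_pow_right₀ hK1 (by omega)
  by_cases hC1 : C₁ = 0
  · -- `Poles` with constant `1` is impossible
    have := hP.two
    rw [hC1, pow_zero] at this
    norm_num at this
  have hKK : K ≤ K ^ C₁ := by
    calc K = K ^ 1 := (pow_one K).symm
      _ ≤ _ := pow_le_pow_right₀ hK1 (by omega)
  obtain ⟨LI, p, u, LJ, q, v, LK, r, w, hS⟩ := h2 K (K ^ C₁) lam Q W I R c w0 m0 Pr Wd o1 o2 o3 F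
    hV hKK hP hpow2 (hpowQ C₂ (by omega))
  rw [← pow_mul] at hS
  have hb1 : (12 * 10 ^ 7 : ℝ) ≤ 2 ^ 27 := by norm_num
  have hb2 : (64 * 10 ^ 21 : ℝ) ≤ 2 ^ 76 := by norm_num
  have hb3 : (15360 ^ 2 : ℝ) ≤ 2 ^ 28 := by norm_num
  have g1 : 12 * 10 ^ 7 * (K ^ (C₁ * C₂)) ^ 20 ≤ lam := by
    calc 12 * 10 ^ 7 * (K ^ (C₁ * C₂)) ^ 20 ≤ K ^ 27 * (K ^ (C₁ * C₂)) ^ 20 :=
          mul_le_mul_of_nonneg_right (hb1.trans (two_pow 27)) (by positivity)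
      _ = K ^ (27 + C₁ * C₂ * 20) := by rw [← pow_mul, ← pow_add]
      _ ≤ lam := hpow _ (by omega)
  set K'' : ℝ := K ^ (500 + C₁ + 50 * (C₁ * C₂)) with hK''
  have g2 : K ^ C₁ ≤ K'' := pow_le_pow_right₀ hK1 (by omega)
  have g3 : 64 * 10 ^ 21 * (K ^ (C₁ * C₂)) ^ 50 ≤ K'' := by
    calc 64 * 10 ^ 21 * (K ^ (C₁ * C₂)) ^ 50 ≤ K ^ 76 * (K ^ (C₁ * C₂)) ^ 50 :=
          mul_le_mul_of_nonneg_right (hb2.trans (two_pow 76)) (by positivity)
      _ = K ^ (76 + C₁ * C₂ * 50) := by rw [← pow_mul, ← pow_add]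
      _ ≤ K'' := pow_le_pow_right₀ hK1 (by omega)
  have g4 : 15360 ^ 2 * K ^ C₁ * (K ^ (C₁ * C₂)) ^ 21 ≤ K'' := by
    calc 15360 ^ 2 * K ^ C₁ * (K ^ (C₁ * C₂)) ^ 21
        ≤ K ^ 28 * K ^ C₁ * (K ^ (C₁ * C₂)) ^ 21 :=
          mul_le_mul_of_nonneg_right (mul_le_mul_of_nonneg_right (hb3.trans (two_pow 28))
            (by positivity)) (by positivity)
      _ = K ^ (28 + C₁ + C₁ * C₂ * 21) := by rw [← pow_mul, ← pow_add, ← pow_add]
      _ ≤ K'' := pow_le_pow_right₀ hK1 (by omega)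
  obtain ⟨F₁, _, δ, hM⟩ := mach0_of hV hP hS g1 g2 g3 g4
  obtain ⟨F₂, _, _, hM2⟩ := hM.prune (by positivity) (by linarith)
  refine ⟨c, w0, m0, o1, o2, o3, F₂, Wd, δ, hM2.mono (by linarith) ?_⟩
  calc 2 * K'' ≤ K * K'' := mul_le_mul_of_nonneg_right hK2 (by positivity)
    _ = K ^ (500 + C₁ + 50 * (C₁ * C₂) + 1) := by rw [hK'', pow_succ]; ring
    _ ≤ K ^ C := pow_le_pow_right₀ hK1 (by omega)

end Vale.Agent.P065.UB.H334
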